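import Crest.Agent.Helper2.FiniteDiff
import Crest.Agent.Helper13.BoxEffDefs
import Crest.Agent.Helper28.RatComputable
import Crest.Agent.Helper23.PlateauBounds

/-!
# `Eff1` from computable values and bounds (glue for S0170)

Combines the finite-difference module (`Helper2.FD`), the rational arithmetic of `Helper28`, the
definition `Helper13.Eff1` and the plateau derivative bounds of `Helper23`.
-/

set_option autoImplicit false
open scoped ContDiff

namespace Crest.Agent.Helper2

/-- Rational arithmetic is computable (from `Helper28.RatComputable`). -/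
theorem ratArith : FD.RatArith where
  natCast := (Crest.Agent.Helper28.primrec_rat_natCast Primrec.id).to_comp
  add := (Crest.Agent.Helper28.primrec_rat_add Primrec.fst Primrec.snd).to_comp
  sub := (Crest.Agent.Helper28.primrec_rat_sub Primrec.fst Primrec.snd).to_comp
  mul := (Crest.Agent.Helper28.primrec_rat_mul Primrec.fst Primrec.snd).to_comp
  div := (Crest.Agent.Helper28.primrec_rat_div Primrec.fst Primrec.snd).to_comp

/-- A smooth function with a computable value approximator at rational points and computable
global bounds on all its derivatives is `Eff1`. -/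
theorem eff1_of_values {f : ℝ → ℝ} (hf : ContDiff ℝ ∞ f) {A : ℚ × ℕ → ℚ} (hA : Computable A)
    (hAf : ∀ (q : ℚ) (n : ℕ), |f q - (A (q, n) : ℝ)| ≤ 1 / ((n : ℝ) + 1)) {b : ℕ → ℕ}
    (hb : Computable b) (hbf : ∀ (k : ℕ) (x : ℝ), |iteratedDeriv k f x| ≤ (b k : ℝ)) :
    Crest.Agent.Helper13.Eff1 f :=
  ⟨hf, FD.derivApprox A b, b, FD.computable_derivApprox ratArith hA hb, hb,
    FD.derivApprox_spec hf hAf hbf, hbf⟩

/-- `Real.smoothTransition` is `Eff1` as soon as its values at rational points are computably
approximable. -/
theorem eff1_smoothTransition_of_values {A : ℚ × ℕ → ℚ} (hA : Computable A)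
    (hAf : ∀ (q : ℚ) (n : ℕ),
      |Real.smoothTransition q - (A (q, n) : ℝ)| ≤ 1 / ((n : ℝ) + 1)) :
    Crest.Agent.Helper13.Eff1 Real.smoothTransition :=
  eff1_of_values Real.smoothTransition.contDiff hA hAf
    Crest.Agent.Helper23.Plateau.computable_sB
    Crest.Agent.Helper23.Plateau.smoothTransition_iteratedDeriv_le

end Crest.Agent.Helper2
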