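import Mathlib

/-!
# Finite differences approximate derivatives (module FD1 for S0170)

For a smooth `f : ℝ → ℝ` whose `(k+1)`-st derivative is globally bounded by `M`, the `k`-th forward
difference with step `h ≥ 0` satisfies
`|Δ_h^k f x - h^k * f^(k) x| ≤ k * h^(k+1) * M`.
-/

open scoped ContDiff fwdDiff
open Finset

namespace Crest.Agent.Helper2.FD

lemma contDiff_fwdDiff {f : ℝ → ℝ} (hf : ContDiff ℝ ∞ f) (h : ℝ) : ContDiff ℝ ∞ (Δ_[h] f) := by
  have h1 : (Δ_[h] f) = (fun z => f (z + h)) - f := rfl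
  rw [h1]
  exact (hf.comp (contDiff_id.add contDiff_const)).sub hf

lemma iteratedDeriv_fwdDiff {f : ℝ → ℝ} (hf : ContDiff ℝ ∞ f) (h : ℝ) (k : ℕ) (x : ℝ) :
    iteratedDeriv k (Δ_[h] f) x = iteratedDeriv k f (x + h) - iteratedDeriv k f x := by
  have h1 : (Δ_[h] f) = (fun z => f (z + h)) - f := rfl
  have hc : ContDiff ℝ ∞ (fun z => f (z + h)) := hf.comp (contDiff_id.add contDiff_const)
  rw [h1, iteratedDeriv_sub, iteratedDeriv_comp_add_const]
  · exact (hc.of_le (by exact_mod_cast le_top)).contDiffAt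
  · exact (hf.of_le (by exact_mod_cast le_top)).contDiffAt

lemma differentiable_iteratedDeriv {f : ℝ → ℝ} (hf : ContDiff ℝ ∞ f) (k : ℕ) :
    Differentiable ℝ (iteratedDeriv k f) :=
  hf.differentiable_iteratedDeriv k (by exact_mod_cast WithTop.coe_lt_top _)

/-- First-order mean value bound. -/
lemma abs_shift_sub_le {F : ℝ → ℝ} (hF : Differentiable ℝ F) {M : ℝ}
    (hM : ∀ x, |deriv F x| ≤ M) (x h : ℝ) : |F (x + h) - F x| ≤ M * |h| := by
  have := Convex.norm_image_sub_le_of_norm_deriv_le (f := F) (s := Set.univ) (x := x) (y := x + h)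
    (fun y _ => hF y) (fun y _ => by simpa [Real.norm_eq_abs] using hM y) convex_univ
    (Set.mem_univ _) (Set.mem_univ _)
  simpa [Real.norm_eq_abs] using this

/-- Second-order bound: `|F (x+h) - F x - h F' x| ≤ M h^2` if `|F''| ≤ M`. -/
lemma abs_shift_sub_sub_le {F : ℝ → ℝ} (hF : Differentiable ℝ F)
    (hF' : Differentiable ℝ (deriv F)) {M : ℝ}
    (hM : ∀ x, |deriv (deriv F) x| ≤ M) (x : ℝ) {h : ℝ} (hh : 0 ≤ h) :
    |F (x + h) - F x - h * deriv F x| ≤ M * h ^ 2 := by
  have hM0 : 0 ≤ M := le_trans (abs_nonneg _) (hM x)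
  have key := Convex.norm_image_sub_le_of_norm_hasDerivWithin_le
    (f := fun y => F y - y * deriv F x) (f' := fun y => deriv F y - 1 * deriv F x)
    (s := Set.Icc x (x + h)) (x := x) (y := x + h) (C := M * h)
    (fun y _ => (((hF y).hasDerivAt).sub ((hasDerivAt_id y).mul_const _)).hasDerivWithinAt)
    (fun y hy => by
      have h1 := abs_shift_sub_le hF' hM x (y - x)
      have h2 : |y - x| ≤ h := by
        rw [abs_le]; constructor <;> linarith [hy.1, hy.2]
      simp only [Real.norm_eq_abs, one_mul]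
      have h3 : deriv F (x + (y - x)) = deriv F y := by congr 1; ring
      rw [h3] at h1
      exact h1.trans (mul_le_mul_of_nonneg_left h2 hM0))
    (convex_Icc _ _) (Set.left_mem_Icc.2 (by linarith)) (Set.right_mem_Icc.2 (by linarith))
  simp only [Real.norm_eq_abs] at key
  have e1 : F (x + h) - (x + h) * deriv F x - (F x - x * deriv F x)
      = F (x + h) - F x - h * deriv F x := by ring
  have e2 : |x + h - x| = h := by
    rw [add_sub_cancel_left, abs_of_nonneg hh]
  rw [e1, e2] at key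
  calc _ ≤ M * h * h := key
    _ = M * h ^ 2 := by ring

/-- **Finite-difference theorem.** If `f` is smooth and `|f^(k+1)| ≤ M` everywhere, then for
`h ≥ 0` the `k`-th forward difference approximates `h^k f^(k)` up to `k h^(k+1) M`. -/
theorem fwdDiff_iter_sub_le {f : ℝ → ℝ} (hf : ContDiff ℝ ∞ f) (k : ℕ) {M : ℝ}
    (hM : ∀ x, |iteratedDeriv (k + 1) f x| ≤ M) {h : ℝ} (hh : 0 ≤ h) (x : ℝ) :
    |((fwdDiff h)^[k] f) x - h ^ k * iteratedDeriv k f x| ≤ k * h ^ (k + 1) * M := by
  induction k generalizing f M x with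
  | zero => simp
  | succ k ih =>
    have hM0 : 0 ≤ M := le_trans (abs_nonneg _) (hM x)
    set g := Δ_[h] f with hg
    have hgs : ContDiff ℝ ∞ g := contDiff_fwdDiff hf h
    have hd1 : Differentiable ℝ (iteratedDeriv (k + 1) f) := differentiable_iteratedDeriv hf _
    have hd0 : Differentiable ℝ (iteratedDeriv k f) := differentiable_iteratedDeriv hf _
    have hs1 : deriv (iteratedDeriv (k + 1) f) = iteratedDeriv (k + 1 + 1) f :=
      (iteratedDeriv_succ (n := k + 1) (f := f)).symm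
    have hs0 : deriv (iteratedDeriv k f) = iteratedDeriv (k + 1) f :=
      (iteratedDeriv_succ (n := k) (f := f)).symm
    have hgM : ∀ y, |iteratedDeriv (k + 1) g y| ≤ M * h := by
      intro y
      rw [hg, iteratedDeriv_fwdDiff hf]
      have := abs_shift_sub_le hd1 (M := M) (by rw [hs1]; exact hM) y h
      rwa [abs_of_nonneg hh] at this
    have h1 := ih hgs hgM x
    have h2 : |iteratedDeriv k f (x + h) - iteratedDeriv k f x - h * iteratedDeriv (k + 1) f x|
        ≤ M * h ^ 2 := by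
      have := abs_shift_sub_sub_le hd0 (by rw [hs0]; exact hd1) (M := M)
        (by rw [hs0, hs1]; exact hM) x hh
      rwa [hs0] at this
    have e : ((fwdDiff h)^[k + 1] f) x - h ^ (k + 1) * iteratedDeriv (k + 1) f x
        = (((fwdDiff h)^[k] g) x - h ^ k * iteratedDeriv k g x)
          + h ^ k * (iteratedDeriv k f (x + h) - iteratedDeriv k f x
              - h * iteratedDeriv (k + 1) f x) := by
      rw [Function.iterate_succ_apply, hg, iteratedDeriv_fwdDiff hf]
      ring
    rw [e]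
    have hk : 0 ≤ h ^ k := pow_nonneg hh k
    calc _ ≤ |((fwdDiff h)^[k] g) x - h ^ k * iteratedDeriv k g x|
          + |h ^ k * (iteratedDeriv k f (x + h) - iteratedDeriv k f x
              - h * iteratedDeriv (k + 1) f x)| := abs_add_le _ _
      _ ≤ k * h ^ (k + 1) * (M * h) + h ^ k * (M * h ^ 2) := by
          rw [abs_mul, abs_of_nonneg hk]
          exact add_le_add h1 (mul_le_mul_of_nonneg_left h2 hk)
      _ = ((k + 1 : ℕ) : ℝ) * h ^ (k + 1 + 1) * M := by push_cast; ring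

/-! ## Computable derivative approximations from computable values and bounds -/

/-- The computability facts about rational arithmetic used below (to be supplied by the
rational-arithmetic module). -/
structure RatArith : Prop where
  natCast : Computable (fun n : ℕ => (n : ℚ))
  add : Computable₂ (fun a b : ℚ => a + b)
  sub : Computable₂ (fun a b : ℚ => a - b)
  mul : Computable₂ (fun a b : ℚ => a * b)
  div : Computable₂ (fun a b : ℚ => a / b)

theorem primrec_factorial : Primrec Nat.factorial := by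
  have h : Primrec (fun n : ℕ => Nat.rec (motive := fun _ => ℕ) 1 (fun m IH => (m + 1) * IH) n) :=
    Primrec.nat_rec₁ 1 (Primrec.nat_mul.comp (Primrec.succ.comp Primrec.fst) Primrec.snd).to₂
  refine h.of_eq fun n => ?_
  induction n with
  | zero => rfl
  | succ n ih => simp [Nat.factorial_succ, ih]

theorem primrec₂_choose : Primrec₂ Nat.choose := by
  have h : Primrec₂ (fun k j : ℕ => if j ≤ k then k.factorial / (j.factorial * (k - j).factorial)
      else 0) := by
    refine Primrec.ite (Primrec.nat_le.comp Primrec.snd Primrec.fst) ?_ (Primrec.const 0)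
    exact Primrec.nat_div.comp (primrec_factorial.comp Primrec.fst)
      (Primrec.nat_mul.comp (primrec_factorial.comp Primrec.snd)
        (primrec_factorial.comp (Primrec.nat_sub.comp Primrec.fst Primrec.snd)))
  refine h.of_eq fun k j => ?_
  by_cases hjk : j ≤ k
  · simp [hjk, Nat.choose_eq_factorial_div_factorial hjk]
  · simp [hjk, Nat.choose_eq_zero_of_lt (not_le.1 hjk)]

theorem primrec₂_pow : Primrec₂ (fun a b : ℕ => a ^ b) := Primrec₂.unpaired'.1 Nat.Primrec.pow

/-- Positive part of the signed binomial coefficient `(-1)^(k-j) * C(k,j)`. -/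
def cP (k j : ℕ) : ℕ := k.choose j * ((k - j + 1) % 2)
/-- Negative part of the signed binomial coefficient `(-1)^(k-j) * C(k,j)`. -/
def cN (k j : ℕ) : ℕ := k.choose j * ((k - j) % 2)

lemma cP_sub_cN (k j : ℕ) :
    ((cP k j : ℝ) - (cN k j : ℝ)) = (((-1 : ℤ) ^ (k - j) * (k.choose j : ℤ) : ℤ) : ℝ) := by
  unfold cP cN
  rcases Nat.even_or_odd (k - j) with he | ho
  · have h1 : (k - j) % 2 = 0 := Nat.even_iff.1 he
    have h2 : (k - j + 1) % 2 = 1 := by omega
    rw [h1, h2, he.neg_one_pow]; push_cast; ring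
  · have h1 : (k - j) % 2 = 1 := Nat.odd_iff.1 ho
    have h2 : (k - j + 1) % 2 = 0 := by omega
    rw [h1, h2, ho.neg_one_pow]; push_cast; ring

lemma abs_cP_sub_cN (k j : ℕ) : |(cP k j : ℝ) - (cN k j : ℝ)| = (k.choose j : ℝ) := by
  rw [cP_sub_cN]; push_cast
  rw [abs_mul, abs_pow, abs_neg, abs_one, one_pow, one_mul, Nat.abs_cast]

theorem primrec₂_cP : Primrec₂ cP :=
  Primrec.nat_mul.comp primrec₂_choose
    (Primrec.nat_mod.comp (Primrec.succ.comp (Primrec.nat_sub.comp Primrec.fst Primrec.snd))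
      (Primrec.const 2))

theorem primrec₂_cN : Primrec₂ cN :=
  Primrec.nat_mul.comp primrec₂_choose
    (Primrec.nat_mod.comp (Primrec.nat_sub.comp Primrec.fst Primrec.snd) (Primrec.const 2))

/-- Denominator `H` of the step `h = 1/H` used for the `k`-th derivative at precision `n`. -/
def stepDen (b : ℕ → ℕ) (k n : ℕ) : ℕ := 2 * (n + 1) * (k * b (k + 1) + 1)

/-- Precision index at which the values are requested. -/
def valPrec (b : ℕ → ℕ) (k n : ℕ) : ℕ := 2 * (n + 1) * 2 ^ k * stepDen b k n ^ k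

/-- The rational approximation of `iteratedDeriv k f q` to within `1/(n+1)`, built from a value
approximator `A` and derivative bounds `b`: a scaled `k`-th forward difference. -/
def derivApprox (A : ℚ × ℕ → ℚ) (b : ℕ → ℕ) (a : ℕ × ℚ × ℕ) : ℚ :=
  ((stepDen b a.1 a.2.2 ^ a.1 : ℕ) : ℚ) *
    ∑ j ∈ Finset.range (a.1 + 1), ((cP a.1 j : ℚ) - (cN a.1 j : ℚ)) *
      A (a.2.1 + (j : ℚ) / (stepDen b a.1 a.2.2 : ℚ), valPrec b a.1 a.2.2)

theorem computable_stepDen {b : ℕ → ℕ} (hb : Computable b) :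
    Computable₂ (stepDen b) := by
  have h1 : Computable (fun p : ℕ × ℕ => 2 * (p.2 + 1)) :=
    (Primrec.nat_mul.comp (Primrec.const 2) (Primrec.succ.comp Primrec.snd)).to_comp
  have h2 : Computable (fun p : ℕ × ℕ => b (p.1 + 1)) :=
    hb.comp (Primrec.succ.comp Primrec.fst).to_comp
  have h3 : Computable (fun p : ℕ × ℕ => p.1 * b (p.1 + 1) + 1) :=
    Primrec.succ.to_comp.comp (Primrec.nat_mul.to_comp.comp Computable.fst h2)
  exact Primrec.nat_mul.to_comp.comp h1 h3

theorem computable_valPrec {b : ℕ → ℕ} (hb : Computable b) :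
    Computable₂ (valPrec b) := by
  have h1 : Computable (fun p : ℕ × ℕ => 2 * (p.2 + 1) * 2 ^ p.1) :=
    (Primrec.nat_mul.comp (Primrec.nat_mul.comp (Primrec.const 2) (Primrec.succ.comp Primrec.snd))
      (primrec₂_pow.comp (Primrec.const 2) Primrec.fst)).to_comp
  have h2 : Computable (fun p : ℕ × ℕ => stepDen b p.1 p.2 ^ p.1) :=
    primrec₂_pow.to_comp.comp (computable_stepDen hb) Computable.fst
  exact Primrec.nat_mul.to_comp.comp h1 h2

theorem computable_sum_range (R : RatArith) {α : Type*} [Primcodable α] {N : α → ℕ}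
    {t : α → ℕ → ℚ} (hN : Computable N) (ht : Computable₂ t) :
    Computable (fun a => ∑ j ∈ Finset.range (N a), t a j) := by
  have hstep : Computable₂ (fun (a : α) (p : ℕ × ℚ) => p.2 + t a p.1) :=
    R.add.comp (Computable.snd.comp Computable.snd)
      (ht.comp Computable.fst (Computable.fst.comp Computable.snd))
  refine (Computable.nat_rec hN (Computable.const (0 : ℚ)) hstep).of_eq fun a => ?_
  induction N a with
  | zero => simp
  | succ m ih => simp only [ih, Finset.sum_range_succ]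

theorem computable_derivApprox (R : RatArith) {A : ℚ × ℕ → ℚ} (hA : Computable A) {b : ℕ → ℕ}
    (hb : Computable b) : Computable (derivApprox A b) := by
  -- the parameters as functions of `a = (k, q, n)`
  have hk : Computable (fun a : ℕ × ℚ × ℕ => a.1) := Computable.fst
  have hq : Computable (fun a : ℕ × ℚ × ℕ => a.2.1) := Computable.fst.comp Computable.snd
  have hn : Computable (fun a : ℕ × ℚ × ℕ => a.2.2) := Computable.snd.comp Computable.snd
  have hH : Computable (fun a : ℕ × ℚ × ℕ => stepDen b a.1 a.2.2) :=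
    (computable_stepDen hb).comp hk hn
  have hm : Computable (fun a : ℕ × ℚ × ℕ => valPrec b a.1 a.2.2) :=
    (computable_valPrec hb).comp hk hn
  have hHk : Computable (fun a : ℕ × ℚ × ℕ => ((stepDen b a.1 a.2.2 ^ a.1 : ℕ) : ℚ)) :=
    R.natCast.comp (primrec₂_pow.to_comp.comp hH hk)
  -- the summand as a function of `(a, j)`
  have hcoef : Computable (fun p : (ℕ × ℚ × ℕ) × ℕ => ((cP p.1.1 p.2 : ℚ) - (cN p.1.1 p.2 : ℚ))) :=
    R.sub.comp
      (R.natCast.comp (primrec₂_cP.to_comp.comp (hk.comp Computable.fst) Computable.snd))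
      (R.natCast.comp (primrec₂_cN.to_comp.comp (hk.comp Computable.fst) Computable.snd))
  have hpt : Computable (fun p : (ℕ × ℚ × ℕ) × ℕ =>
      p.1.2.1 + (p.2 : ℚ) / (stepDen b p.1.1 p.1.2.2 : ℚ)) :=
    R.add.comp (hq.comp Computable.fst)
      (R.div.comp (R.natCast.comp Computable.snd) (R.natCast.comp (hH.comp Computable.fst)))
  have hval : Computable (fun p : (ℕ × ℚ × ℕ) × ℕ =>
      A (p.1.2.1 + (p.2 : ℚ) / (stepDen b p.1.1 p.1.2.2 : ℚ), valPrec b p.1.1 p.1.2.2)) :=
    hA.comp (hpt.pair (hm.comp Computable.fst))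
  have hterm : Computable₂ (fun (a : ℕ × ℚ × ℕ) (j : ℕ) =>
      ((cP a.1 j : ℚ) - (cN a.1 j : ℚ)) *
        A (a.2.1 + (j : ℚ) / (stepDen b a.1 a.2.2 : ℚ), valPrec b a.1 a.2.2)) :=
    R.mul.comp hcoef hval
  have hsum := computable_sum_range R (Primrec.succ.to_comp.comp hk) hterm
  exact R.mul.comp hHk hsum

/-- **Error bound for `derivApprox`.** -/
theorem derivApprox_spec {f : ℝ → ℝ} (hf : ContDiff ℝ ∞ f) {A : ℚ × ℕ → ℚ}
    (hAf : ∀ (q : ℚ) (n : ℕ), |f q - (A (q, n) : ℝ)| ≤ 1 / ((n : ℝ) + 1)) {b : ℕ → ℕ}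
    (hbf : ∀ (k : ℕ) (x : ℝ), |iteratedDeriv k f x| ≤ (b k : ℝ)) (k : ℕ) (q : ℚ) (n : ℕ) :
    |iteratedDeriv k f q - (derivApprox A b (k, q, n) : ℝ)| ≤ 1 / ((n : ℝ) + 1) := by
  set H : ℕ := stepDen b k n with hH
  set m : ℕ := valPrec b k n with hm
  have hHnat : 2 * (n + 1) * (k * b (k + 1)) ≤ H := by
    rw [hH]; unfold stepDen; nlinarith
  have hmnat : 2 * (n + 1) * 2 ^ k * H ^ k = m := by rw [hm, hH]; rfl
  have hHpos' : 0 < H := by rw [hH]; unfold stepDen; positivity
  have hHpos : (0 : ℝ) < H := by exact_mod_cast hHpos'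
  set h : ℝ := (H : ℝ)⁻¹ with hh
  have hhpos : 0 < h := inv_pos.2 hHpos
  have hHh : (H : ℝ) * h = 1 := mul_inv_cancel₀ hHpos.ne'
  set c : ℕ → ℝ := fun j => (cP k j : ℝ) - (cN k j : ℝ) with hc
  set x : ℕ → ℚ := fun j => q + (j : ℚ) / (H : ℚ) with hx
  have hxr : ∀ j, ((x j : ℚ) : ℝ) = (q : ℝ) + j * h := by
    intro j; simp [hx, hh, div_eq_mul_inv]
  have hcast : (derivApprox A b (k, q, n) : ℝ)
      = (H : ℝ) ^ k * ∑ j ∈ Finset.range (k + 1), c j * (A (x j, m) : ℝ) := by
    simp [derivApprox, hc, hx, hH, hm]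
  have hfd : ((fwdDiff h)^[k] f) q = ∑ j ∈ Finset.range (k + 1), c j * f (x j) := by
    rw [fwdDiff_iter_eq_sum_shift]
    refine Finset.sum_congr rfl fun j _ => ?_
    rw [hxr, hc]
    simp only
    rw [cP_sub_cN, zsmul_eq_mul, nsmul_eq_mul]
  have hmain := fwdDiff_iter_sub_le hf k (M := b (k + 1)) (fun y => hbf (k + 1) y) hhpos.le
    (q : ℝ)
  have hHk : (0 : ℝ) < (H : ℝ) ^ k := pow_pos hHpos k
  have hHhk : (H : ℝ) ^ k * h ^ k = 1 := by rw [← mul_pow, hHh, one_pow]
  have e : iteratedDeriv k f q - (derivApprox A b (k, q, n) : ℝ)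
      = -((H : ℝ) ^ k * (((fwdDiff h)^[k] f) q - h ^ k * iteratedDeriv k f q))
        + (H : ℝ) ^ k * ∑ j ∈ Finset.range (k + 1), c j * (f (x j) - (A (x j, m) : ℝ)) := by
    rw [hcast, hfd]
    have : ∑ j ∈ Finset.range (k + 1), c j * (f (x j) - (A (x j, m) : ℝ))
        = ∑ j ∈ Finset.range (k + 1), c j * f (x j)
          - ∑ j ∈ Finset.range (k + 1), c j * (A (x j, m) : ℝ) := by
      rw [← Finset.sum_sub_distrib]
      exact Finset.sum_congr rfl fun j _ => by ring
    rw [this]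
    linear_combination (iteratedDeriv k f q) * hHhk.symm
  have hn1 : (0 : ℝ) < 2 * ((n : ℝ) + 1) := by positivity
  -- first error term
  have b1 : |(H : ℝ) ^ k * (((fwdDiff h)^[k] f) q - h ^ k * iteratedDeriv k f q)|
      ≤ 1 / (2 * ((n : ℝ) + 1)) := by
    rw [abs_mul, abs_of_pos hHk]
    have s1 : (H : ℝ) ^ k * |((fwdDiff h)^[k] f) q - h ^ k * iteratedDeriv k f q|
        ≤ (H : ℝ) ^ k * (k * h ^ (k + 1) * (b (k + 1) : ℝ)) :=
      mul_le_mul_of_nonneg_left hmain hHk.le
    have s2 : (H : ℝ) ^ k * (k * h ^ (k + 1) * (b (k + 1) : ℝ))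
        = ((k * b (k + 1) : ℕ) : ℝ) / (H : ℝ) := by
      rw [pow_succ]
      have : (H : ℝ) ^ k * (k * (h ^ k * h) * (b (k + 1) : ℝ))
          = ((H : ℝ) ^ k * h ^ k) * (k * b (k + 1)) * h := by ring
      rw [this, hHhk, hh]; push_cast; ring
    rw [s2] at s1
    refine s1.trans ?_
    rw [div_le_div_iff₀ hHpos hn1, one_mul]
    have : ((2 * (n + 1) * (k * b (k + 1)) : ℕ) : ℝ) ≤ (H : ℝ) := by exact_mod_cast hHnat
    push_cast at this ⊢
    linarith
  -- second error term
  have b2 : |(H : ℝ) ^ k * ∑ j ∈ Finset.range (k + 1), c j * (f (x j) - (A (x j, m) : ℝ))|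
      ≤ 1 / (2 * ((n : ℝ) + 1)) := by
    rw [abs_mul, abs_of_pos hHk]
    have hm1 : (0 : ℝ) < (m : ℝ) + 1 := by positivity
    have s1 : |∑ j ∈ Finset.range (k + 1), c j * (f (x j) - (A (x j, m) : ℝ))|
        ≤ ∑ j ∈ Finset.range (k + 1), (k.choose j : ℝ) * (1 / ((m : ℝ) + 1)) := by
      refine (Finset.abs_sum_le_sum_abs _ _).trans (Finset.sum_le_sum fun j _ => ?_)
      rw [abs_mul, hc]
      simp only
      rw [abs_cP_sub_cN]
      exact mul_le_mul_of_nonneg_left (hAf (x j) m) (Nat.cast_nonneg _)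
    have s2 : ∑ j ∈ Finset.range (k + 1), (k.choose j : ℝ) * (1 / ((m : ℝ) + 1))
        = (2 : ℝ) ^ k / ((m : ℝ) + 1) := by
      rw [← Finset.sum_mul]
      have : ∑ j ∈ Finset.range (k + 1), (k.choose j : ℝ) = (2 : ℝ) ^ k := by
        exact_mod_cast congrArg (Nat.cast : ℕ → ℝ) (Nat.sum_range_choose k)
      rw [this]; ring
    rw [s2] at s1
    refine (mul_le_mul_of_nonneg_left s1 hHk.le).trans ?_
    rw [← mul_div_assoc, div_le_div_iff₀ hm1 hn1, one_mul]
    have : ((2 * (n + 1) * 2 ^ k * H ^ k : ℕ) : ℝ) = (m : ℝ) := by exact_mod_cast hmnat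
    push_cast at this
    nlinarith
  rw [e]
  calc _ ≤ |-((H : ℝ) ^ k * (((fwdDiff h)^[k] f) q - h ^ k * iteratedDeriv k f q))|
        + |(H : ℝ) ^ k * ∑ j ∈ Finset.range (k + 1), c j * (f (x j) - (A (x j, m) : ℝ))| :=
        abs_add_le _ _
    _ ≤ 1 / (2 * ((n : ℝ) + 1)) + 1 / (2 * ((n : ℝ) + 1)) := by
        rw [abs_neg]; exact add_le_add b1 b2
    _ = 1 / ((n : ℝ) + 1) := by field_simp; ring

/-- **FD1.** A smooth function with a computable value approximator at rational points and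
computable global bounds on all derivatives has a computable approximator for all its derivatives
at rational points. -/
theorem exists_derivApprox (R : RatArith) {f : ℝ → ℝ} (hf : ContDiff ℝ ∞ f) {A : ℚ × ℕ → ℚ}
    (hA : Computable A)
    (hAf : ∀ (q : ℚ) (n : ℕ), |f q - (A (q, n) : ℝ)| ≤ 1 / ((n : ℝ) + 1)) {b : ℕ → ℕ}
    (hb : Computable b) (hbf : ∀ (k : ℕ) (x : ℝ), |iteratedDeriv k f x| ≤ (b k : ℝ)) :
    ∃ E : ℕ × ℚ × ℕ → ℚ, Computable E ∧
      ∀ (k : ℕ) (q : ℚ) (n : ℕ), |iteratedDeriv k f q - (E (k, q, n) : ℝ)| ≤ 1 / ((n : ℝ) + 1) :=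
  ⟨derivApprox A b, computable_derivApprox R hA hb, derivApprox_spec hf hAf hbf⟩

end Crest.Agent.Helper2.FD
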