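import Mathlib
import Crest.Agent.Helper27.LpSum

/-!
# `ℓ²`-sum pair bound (helper2, row 125 / S0166-SUMMOD helper lemma)

Thin wrappers around `Crest.Agent.Helper27.sqrt_le_norm_add_norm` and
`Crest.Agent.Helper27.hasSum_norm_sq`, in the exact shape requested for `sum_midpoint`.
-/

set_option autoImplicit false

open scoped ENNReal

namespace Crest.Agent.Helper2

section LpPair

variable {α : Type*} {E : α → Type*} [∀ i, NormedAddCommGroup (E i)] [∀ i, NormedSpace ℝ (E i)]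

/-- `‖x‖² = ∑ ‖x n‖²` in `lp E 2`. -/
theorem lp_two_norm_sq (x : lp E 2) : HasSum (fun n => ‖x n‖ ^ 2) (‖x‖ ^ 2) :=
  Crest.Agent.Helper27.hasSum_norm_sq x

/-- Blockwise lower bounds `√(4 ξₙ² + υₙ²) ≤ ‖u n‖ + ‖w n‖` add up in the `ℓ²`-sum:
`√(4 ∑ ξₙ² + ∑ υₙ²) ≤ ‖u‖ + ‖w‖`. -/
theorem lp_two_pair_bound (u w : lp E 2) (ξ υ : α → ℝ) (X2 Y2 : ℝ)
    (hblock : ∀ n, Real.sqrt (4 * ξ n ^ 2 + υ n ^ 2) ≤ ‖u n‖ + ‖w n‖)
    (hξ : HasSum (fun n => ξ n ^ 2) X2) (hυ : HasSum (fun n => υ n ^ 2) Y2) :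
    Real.sqrt (4 * X2 + Y2) ≤ ‖u‖ + ‖w‖ := by
  refine Crest.Agent.Helper27.sqrt_le_norm_add_norm u w
    (fun n => 4 * ξ n ^ 2 + υ n ^ 2) _ (fun n => ?_) ((hξ.mul_left 4).add hυ)
  have h0 : 0 ≤ 4 * ξ n ^ 2 + υ n ^ 2 := by positivity
  calc 4 * ξ n ^ 2 + υ n ^ 2
      = Real.sqrt (4 * ξ n ^ 2 + υ n ^ 2) ^ 2 := (Real.sq_sqrt h0).symm
    _ ≤ (‖u n‖ + ‖w n‖) ^ 2 := pow_le_pow_left₀ (Real.sqrt_nonneg _) (hblock n) 2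

end LpPair

end Crest.Agent.Helper2
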