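/-
helper2: fast kernel-checkable bridge for S0085 (packed natural-number Walsh transform).

A Boolean function on `m` variables is given by the bits of ONE natural number `t`
(`g x = t.testBit (idx x)`, variable `0` is the most significant index bit).  The even/odd
character counts of all `2^m` characters are computed on big naturals (fields of width `w`),
by a divide-and-conquer recursion that uses only kernel-accelerated `Nat` operations; a single
closed Boolean fact `cert w m d W t = true` then yields the hypotheses of helper29's `amplify`.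

USAGE (if a witness is ever found).  Let `g` be a BALANCED Boolean function on `m` variables of
real degree at most `d` with level-one sum `s = sum_i ghat(i) > sqrt d`.  Put
  `t` = the number whose bit number `sum_i [x i] * 2 ^ (m - 1 - i)` is `[g x]`  (variable 0 = MSB),
  `W` = `s * 2 ^ (m - 1)`  (a natural number),  `w` = any field width with `m < w` (say `m + 2`).
Then `Crest/Agent/S0085.lean` is the template with the proof

  theorem result (C : ℝ) (hC : 0 < C) : ... :=
    Crest.Agent.Helper2.Pack.amplify_of_bits w m d W t (by decide +kernel) C hC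

Measured kernel time for the whole certificate (one `decide +kernel`): m = 13: 0.7 s,
m = 18: 27 s, m = 20: 113 s (about 4.2x per two more variables), so up to m = 22 fits
the 15 minute limits; helper29's tree bridge needs about 200 s per fact at m = 14.
What `cert` checks: `m < w`; balance `2 * E(0) = 2 * O(0) + 2 ^ m`; every field of `E` and `O`
at an index with more than `d` ones agrees (degree at most `d`); level one `L1(E) = L1(O) + W`;
and `d * 4 ^ m < (2 * W) ^ 2`.
-/
import Crest.Agent.Helper29.S0085Table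

set_option autoImplicit false

namespace Crest.Agent.Helper2.Pack

open Finset Crest.Agent.Helper29.S85

/-! ### indices and packing -/

/-- index of a point of the cube; variable `0` is the most significant bit. -/
def idx : {k : ℕ} → (Fin k → Bool) → ℕ
  | 0, _ => 0
  | k + 1, x => (if x 0 then 2 ^ k else 0) + idx (Fin.tail x)

lemma idx_lt : ∀ {k : ℕ} (x : Fin k → Bool), idx x < 2 ^ k
  | 0, _ => by simp [idx]
  | k + 1, x => by
    have h := idx_lt (Fin.tail x)
    simp only [idx]
    rw [pow_succ]
    split <;> omega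

lemma idx_cons {k : ℕ} (b : Bool) (x : Fin k → Bool) :
    idx (Fin.cons b x : Fin (k + 1) → Bool) = (if b then 2 ^ k else 0) + idx x := by
  simp [idx]

lemma idx_false : ∀ {k : ℕ}, idx (fun _ : Fin k => false) = 0
  | 0 => rfl
  | k + 1 => by
    have h := @idx_false k
    simp only [idx, Bool.false_eq_true, if_false, zero_add]
    exact h

/-- the number whose field (of width `w`) at index `idx s` is `F s`. -/
def pack (w : ℕ) : (k : ℕ) → ((Fin k → Bool) → ℕ) → ℕ
  | 0, F => F (fun i => i.elim0)
  | k + 1, F => pack w k (fun s => F (Fin.cons false s))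
      + pack w k (fun s => F (Fin.cons true s)) * 2 ^ (w * 2 ^ k)

lemma pack_add (w : ℕ) : ∀ (k : ℕ) (F G : (Fin k → Bool) → ℕ),
    pack w k (fun s => F s + G s) = pack w k F + pack w k G
  | 0, F, G => rfl
  | k + 1, F, G => by
    simp only [pack]
    rw [pack_add w k, pack_add w k]
    ring

lemma pack_lt (w : ℕ) : ∀ (k : ℕ) (F : (Fin k → Bool) → ℕ), (∀ s, F s < 2 ^ w) →
    pack w k F < 2 ^ (w * 2 ^ k)
  | 0, F, hF => by simpa [pack] using hF _
  | k + 1, F, hF => by
    have h0 := pack_lt w k (fun s => F (Fin.cons false s)) (fun s => hF _)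
    have h1 := pack_lt w k (fun s => F (Fin.cons true s)) (fun s => hF _)
    simp only [pack]
    have hP : 2 ^ (w * 2 ^ (k + 1)) = 2 ^ (w * 2 ^ k) * 2 ^ (w * 2 ^ k) := by
      rw [← pow_add]; congr 1; ring
    rw [hP]
    generalize 2 ^ (w * 2 ^ k) = P at *
    nlinarith

lemma pack_mod (w k : ℕ) (F : (Fin (k + 1) → Bool) → ℕ) (hF : ∀ s, F s < 2 ^ w) :
    pack w (k + 1) F % 2 ^ (w * 2 ^ k) = pack w k (fun s => F (Fin.cons false s)) := by
  simp only [pack]
  rw [Nat.add_mul_mod_self_right]
  exact Nat.mod_eq_of_lt (pack_lt w k _ (fun s => hF _))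

lemma pack_shift (w k : ℕ) (F : (Fin (k + 1) → Bool) → ℕ) (hF : ∀ s, F s < 2 ^ w) :
    pack w (k + 1) F >>> (w * 2 ^ k) = pack w k (fun s => F (Fin.cons true s)) := by
  simp only [pack]
  rw [Nat.shiftRight_eq_div_pow, Nat.add_mul_div_right _ _ (by positivity),
    Nat.div_eq_of_lt (pack_lt w k _ (fun s => hF _)), zero_add]

lemma pack_mod_base (w : ℕ) : ∀ (k : ℕ) (F : (Fin k → Bool) → ℕ), (∀ s, F s < 2 ^ w) →
    pack w k F % 2 ^ w = F (fun _ => false)
  | 0, F, hF => by
    simp only [pack]
    rw [Nat.mod_eq_of_lt (hF _)]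
    congr 1
    funext i; exact i.elim0
  | k + 1, F, hF => by
    have h0 := pack_mod_base w k (fun s => F (Fin.cons false s)) (fun s => hF _)
    simp only [pack]
    have hdvd : 2 ^ w ∣ pack w k (fun s => F (Fin.cons true s)) * 2 ^ (w * 2 ^ k) := by
      apply Dvd.dvd.mul_left
      apply pow_dvd_pow
      exact Nat.le_mul_of_pos_right _ (by positivity)
    rw [Nat.add_mod, Nat.mod_eq_zero_of_dvd hdvd, add_zero, Nat.mod_mod, h0]
    congr 1
    funext i
    refine Fin.cases ?_ (fun j => ?_) i <;> simp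

lemma pack_inj (w : ℕ) : ∀ (k : ℕ) (F G : (Fin k → Bool) → ℕ), (∀ s, F s < 2 ^ w) →
    (∀ s, G s < 2 ^ w) → pack w k F = pack w k G → ∀ s, F s = G s
  | 0, F, G, _, _, h => by
    intro s
    have hs : s = fun i => i.elim0 := by funext i; exact i.elim0
    subst hs
    simpa [pack] using h
  | k + 1, F, G, hF, hG, h => by
    intro s
    have hm : pack w k (fun s => F (Fin.cons false s)) = pack w k (fun s => G (Fin.cons false s)) := by
      rw [← pack_mod w k F hF, ← pack_mod w k G hG, h]
    have hd : pack w k (fun s => F (Fin.cons true s)) = pack w k (fun s => G (Fin.cons true s)) := by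
      rw [← pack_shift w k F hF, ← pack_shift w k G hG, h]
    have h0 := pack_inj w k _ _ (fun s => hF _) (fun s => hG _) hm (Fin.tail s)
    have h1 := pack_inj w k _ _ (fun s => hF _) (fun s => hG _) hd (Fin.tail s)
    rw [← Fin.cons_self_tail s]
    cases hs : s 0
    · exact h0
    · exact h1

/-! ### the kernel functions -/

/-- packed even/odd counts: the field of `(eo w k t).1` at index `idx s` is the number of
true points `x` of the table `t` with an even number of `false` coordinates in `s`. -/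
def eo (w : ℕ) (k : ℕ) : ℕ → ℕ × ℕ :=
  Nat.rec (motive := fun _ => ℕ → ℕ × ℕ) (fun t => (Nat.mod t 2, 0))
    (fun k ih t =>
      (fun (s : ℕ) (l r : ℕ × ℕ) =>
        (Nat.add (Nat.add l.1 r.1) (Nat.shiftLeft (Nat.add r.1 l.2) s),
         Nat.add (Nat.add l.2 r.2) (Nat.shiftLeft (Nat.add r.2 l.1) s)))
        (Nat.mul w (Nat.pow 2 k))
        (ih (Nat.mod t (Nat.pow 2 (Nat.pow 2 k)))) (ih (Nat.shiftRight t (Nat.pow 2 k)))) k

lemma eo_zero (w t : ℕ) : eo w 0 t = (t % 2, 0) := rfl

lemma eo_succ (w k t : ℕ) : eo w (k + 1) t =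
    ((eo w k (t % 2 ^ (2 ^ k))).1 + (eo w k (t >>> (2 ^ k))).1
        + ((eo w k (t >>> (2 ^ k))).1 + (eo w k (t % 2 ^ (2 ^ k))).2) <<< (w * 2 ^ k),
     (eo w k (t % 2 ^ (2 ^ k))).2 + (eo w k (t >>> (2 ^ k))).2
        + ((eo w k (t >>> (2 ^ k))).2 + (eo w k (t % 2 ^ (2 ^ k))).1) <<< (w * 2 ^ k)) := rfl

/-- all fields of `E` and `O` at indices with more than `d - c` ones agree. -/
def chk (w d : ℕ) (k : ℕ) : ℕ → ℕ → ℕ → Bool :=
  Nat.rec (motive := fun _ => ℕ → ℕ → ℕ → Bool)
    (fun c E O => Nat.ble c d || Nat.beq E O)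
    (fun k ih c E O => Nat.beq E O || (Nat.ble (Nat.add c (Nat.succ k)) d ||
      (ih c (Nat.mod E (Nat.pow 2 (Nat.mul w (Nat.pow 2 k))))
            (Nat.mod O (Nat.pow 2 (Nat.mul w (Nat.pow 2 k)))) &&
        ih (Nat.succ c) (Nat.shiftRight E (Nat.mul w (Nat.pow 2 k)))
            (Nat.shiftRight O (Nat.mul w (Nat.pow 2 k)))))) k

lemma chk_zero (w d c E O : ℕ) : chk w d 0 c E O = (Nat.ble c d || Nat.beq E O) := rfl

lemma chk_succ (w d k c E O : ℕ) : chk w d (k + 1) c E O =
    (Nat.beq E O || (Nat.ble (c + (k + 1)) d ||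
      (chk w d k c (E % 2 ^ (w * 2 ^ k)) (O % 2 ^ (w * 2 ^ k)) &&
        chk w d k (c + 1) (E >>> (w * 2 ^ k)) (O >>> (w * 2 ^ k))))) := rfl

/-- sum of the fields at the indices with exactly one `true`. -/
def lv1 (w : ℕ) (k : ℕ) : ℕ → ℕ :=
  Nat.rec (motive := fun _ => ℕ → ℕ) (fun _ => 0)
    (fun k ih X => Nat.add (ih (Nat.mod X (Nat.pow 2 (Nat.mul w (Nat.pow 2 k)))))
      (Nat.mod (Nat.shiftRight X (Nat.mul w (Nat.pow 2 k))) (Nat.pow 2 w))) k

lemma lv1_zero (w X : ℕ) : lv1 w 0 X = 0 := rfl

lemma lv1_succ (w k X : ℕ) : lv1 w (k + 1) X =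
    lv1 w k (X % 2 ^ (w * 2 ^ k)) + (X >>> (w * 2 ^ k)) % 2 ^ w := rfl

/-- the certificate: `t` is the truth table of a balanced function on `m` variables all of
whose Walsh coefficients above level `d` vanish and whose level-one sum is `2 * W / 2 ^ m`,
with `d * 4 ^ m < (2 * W) ^ 2`. -/
def cert (w m d W t : ℕ) : Bool :=
  (fun p : ℕ × ℕ =>
    Nat.blt m w && (Nat.beq (2 * (p.1 % 2 ^ w)) (2 * (p.2 % 2 ^ w) + 2 ^ m) &&
      (chk w d m 0 p.1 p.2 && (Nat.beq (lv1 w m p.1) (lv1 w m p.2 + W) &&
        Nat.blt (d * 4 ^ m) ((2 * W) ^ 2))))) (eo w m t)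

/-! ### specification of the counts -/

/-- even/odd counts as a function of the character. -/
def EO : (k : ℕ) → ℕ → (Fin k → Bool) → ℕ × ℕ
  | 0, t, _ => (t % 2, 0)
  | k + 1, t, s =>
    if s 0 then
      ((EO k (t >>> (2 ^ k)) (Fin.tail s)).1 + (EO k (t % 2 ^ (2 ^ k)) (Fin.tail s)).2,
       (EO k (t >>> (2 ^ k)) (Fin.tail s)).2 + (EO k (t % 2 ^ (2 ^ k)) (Fin.tail s)).1)
    else
      ((EO k (t % 2 ^ (2 ^ k)) (Fin.tail s)).1 + (EO k (t >>> (2 ^ k)) (Fin.tail s)).1,
       (EO k (t % 2 ^ (2 ^ k)) (Fin.tail s)).2 + (EO k (t >>> (2 ^ k)) (Fin.tail s)).2)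

lemma EO_le : ∀ (k t : ℕ) (s : Fin k → Bool), (EO k t s).1 + (EO k t s).2 ≤ 2 ^ k
  | 0, t, s => by
    simp only [EO]
    have := Nat.mod_lt t (show 0 < 2 by norm_num)
    omega
  | k + 1, t, s => by
    have h0 := EO_le k (t % 2 ^ (2 ^ k)) (Fin.tail s)
    have h1 := EO_le k (t >>> (2 ^ k)) (Fin.tail s)
    simp only [EO]
    rw [pow_succ]
    split <;> simp only <;> omega

lemma eo_eq_pack (w : ℕ) : ∀ (k t : ℕ),
    eo w k t = (pack w k (fun s => (EO k t s).1), pack w k (fun s => (EO k t s).2))
  | 0, t => rfl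
  | k + 1, t => by
    rw [eo_succ, eo_eq_pack w k, eo_eq_pack w k]
    simp only [pack, EO, Fin.cons_zero, Fin.tail_cons, Bool.false_eq_true, if_false, if_true,
      Nat.shiftLeft_eq]
    rw [pack_add, pack_add, pack_add, pack_add]

/-- the counts as character sums. -/
lemma EO_spec : ∀ (k t : ℕ) (s : Fin k → Bool),
    ((EO k t s).1 : ℤ) - (EO k t s).2 = ∑ x : Fin k → Bool,
      (if t.testBit (idx x) then ∏ i, (if s i then (if x i then (1 : ℤ) else -1) else 1) else 0)
  | 0, t, s => by
    simp only [EO, Fintype.sum_unique, idx, Finset.univ_eq_empty, Finset.prod_empty,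
      Nat.testBit_zero]
    rcases Nat.mod_two_eq_zero_or_one t with h | h <;> simp [h]
  | k + 1, t, s => by
    have hl := EO_spec k (t % 2 ^ (2 ^ k)) (Fin.tail s)
    have hr := EO_spec k (t >>> (2 ^ k)) (Fin.tail s)
    rw [Crest.Agent.Helper29.S85.sum_cons]
    have e1 : ∀ x' : Fin k → Bool, t.testBit (idx (Fin.cons true x' : Fin (k + 1) → Bool))
        = (t >>> (2 ^ k)).testBit (idx x') := by
      intro x'; rw [idx_cons, Nat.testBit_shiftRight]; simp
    have e2 : ∀ x' : Fin k → Bool, t.testBit (idx (Fin.cons false x' : Fin (k + 1) → Bool))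
        = (t % 2 ^ (2 ^ k)).testBit (idx x') := by
      intro x'; rw [idx_cons, Nat.testBit_mod_two_pow]; simp [idx_lt x']
    have e3 : ∀ (b : Bool) (x' : Fin k → Bool),
        ∏ i : Fin (k + 1), (if s i then
            (if (Fin.cons b x' : Fin (k + 1) → Bool) i then (1 : ℤ) else -1) else 1)
          = (if s 0 then (if b then (1 : ℤ) else -1) else 1)
            * ∏ i : Fin k, (if Fin.tail s i then (if x' i then (1 : ℤ) else -1) else 1) := by
      intro b x'; rw [Fin.prod_univ_succ]; simp only [Fin.cons_zero, Fin.cons_succ]; rfl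
    simp only [e1, e2, e3]
    have e4 : ∀ (c : ℤ) (u : ℕ), ∑ x' : Fin k → Bool,
        (if u.testBit (idx x') then
          c * ∏ i : Fin k, (if Fin.tail s i then (if x' i then (1 : ℤ) else -1) else 1) else 0)
        = c * ∑ x' : Fin k → Bool, (if u.testBit (idx x') then
          ∏ i : Fin k, (if Fin.tail s i then (if x' i then (1 : ℤ) else -1) else 1) else 0) := by
      intro c u; rw [Finset.mul_sum]; apply Finset.sum_congr rfl; intro x' _
      split <;> simp
    rw [e4, e4, ← hl, ← hr]
    simp only [EO]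
    by_cases h0 : s 0 = true
    · simp only [h0, if_true]; push_cast; ring
    · simp only [h0]; push_cast; simp; ring

/-! ### specifications of the checks -/

lemma chk_spec (w d : ℕ) : ∀ (k c : ℕ) (FE FO : (Fin k → Bool) → ℕ),
    (∀ s, FE s < 2 ^ w) → (∀ s, FO s < 2 ^ w) →
    chk w d k c (pack w k FE) (pack w k FO) = true →
    ∀ s : Fin k → Bool, d < c + ∑ i, (if s i then 1 else 0) → FE s = FO s
  | 0, c, FE, FO, hE, hO, h => by
    intro s hs
    rw [chk_zero] at h
    simp only [Finset.univ_eq_empty, Finset.sum_empty, add_zero] at hs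
    simp only [Bool.or_eq_true, Nat.ble_eq, Nat.beq_eq] at h
    rcases h with h | h
    · omega
    · exact pack_inj w 0 FE FO hE hO h s
  | k + 1, c, FE, FO, hE, hO, h => by
    intro s hs
    rw [chk_succ] at h
    simp only [Bool.or_eq_true, Bool.and_eq_true, Nat.ble_eq, Nat.beq_eq] at h
    rcases h with h | h | ⟨h0, h1⟩
    · exact pack_inj w (k + 1) FE FO hE hO h s
    · have : ∑ i : Fin (k + 1), (if s i then 1 else 0) ≤ k + 1 := by
        calc ∑ i : Fin (k + 1), (if s i then 1 else 0) ≤ ∑ _i : Fin (k + 1), 1 := by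
              apply Finset.sum_le_sum; intro i _; split <;> simp
          _ = k + 1 := by simp
      omega
    · rw [pack_mod w k FE hE, pack_mod w k FO hO] at h0
      rw [pack_shift w k FE hE, pack_shift w k FO hO] at h1
      rw [Fin.sum_univ_succ] at hs
      have htail : ∑ i : Fin k, (if s i.succ = true then 1 else 0)
          = ∑ i : Fin k, (if Fin.tail s i = true then 1 else 0) := rfl
      rw [← Fin.cons_self_tail s]
      cases hs0 : s 0
      · apply chk_spec w d k c _ _ (fun s => hE _) (fun s => hO _) h0 (Fin.tail s)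
        rw [hs0] at hs
        simp only [Bool.false_eq_true, if_false, zero_add] at hs
        rw [← htail]; exact hs
      · apply chk_spec w d k (c + 1) _ _ (fun s => hE _) (fun s => hO _) h1 (Fin.tail s)
        rw [hs0] at hs
        simp only [if_true] at hs
        rw [← htail]; omega

lemma lv1_spec (w : ℕ) : ∀ (k : ℕ) (F : (Fin k → Bool) → ℕ), (∀ s, F s < 2 ^ w) →
    lv1 w k (pack w k F) = ∑ i : Fin k, F (fun j => decide (j = i))
  | 0, F, _ => by simp [lv1_zero]
  | k + 1, F, hF => by
    rw [lv1_succ, pack_mod w k F hF, pack_shift w k F hF,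
      lv1_spec w k _ (fun s => hF _), pack_mod_base w k _ (fun s => hF _), Fin.sum_univ_succ]
    have h0 : (Fin.cons true (fun _ : Fin k => false) : Fin (k + 1) → Bool)
        = fun j => decide (j = 0) := by
      funext j
      refine Fin.cases ?_ (fun i => ?_) j <;> simp [Fin.succ_ne_zero]
    have h1 : ∀ i : Fin k, (Fin.cons false (fun j : Fin k => decide (j = i)) : Fin (k + 1) → Bool)
        = fun j => decide (j = i.succ) := by
      intro i
      funext j
      refine Fin.cases ?_ (fun l => ?_) j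
      · simp [eq_comm, Fin.succ_ne_zero]
      · simp
    simp only [h0, h1]
    rw [add_comm]

/-! ### the bridge -/

/-- **Packed-table version of the amplification lemma.**  The single hypothesis is a closed
Boolean fact, to be discharged by `decide +kernel`. -/
theorem amplify_of_bits (w m d W t : ℕ) (h : cert w m d W t = true) (C : ℝ) (hC : 0 < C) :
    ∃ n : ℕ, ∃ f : (Fin n → Bool) → Bool, ∃ d : ℕ,
      (∃ x y, f x ≠ f y) ∧
      (∀ S : Finset (Fin n), d < S.card →
        ∑ x : Fin n → Bool,
          ((if f x then (1 : ℝ) else -1) * ∏ i ∈ S, (if x i then (1 : ℝ) else -1)) = 0) ∧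
      C * Real.sqrt d <
        ∑ i : Fin n, (∑ x : Fin n → Bool,
          ((if f x then (1 : ℝ) else -1) * (if x i then (1 : ℝ) else -1))) / 2 ^ n := by
  unfold cert at h
  rw [eo_eq_pack] at h
  simp only [Bool.and_eq_true, Nat.blt_eq, Nat.beq_eq] at h
  obtain ⟨hmw, hbal, hchk, hlv, hW⟩ := h
  have hE : ∀ s, (EO m t s).1 < 2 ^ w := by
    intro s
    have h1 := EO_le m t s
    have h2 : 2 ^ m < 2 ^ w := Nat.pow_lt_pow_right (by norm_num) hmw
    omega
  have hO : ∀ s, (EO m t s).2 < 2 ^ w := by
    intro s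
    have h1 := EO_le m t s
    have h2 : 2 ^ m < 2 ^ w := Nat.pow_lt_pow_right (by norm_num) hmw
    omega
  rw [pack_mod_base w m _ hE, pack_mod_base w m _ hO] at hbal
  rw [lv1_spec w m _ hE, lv1_spec w m _ hO] at hlv
  have key : ∀ S : Finset (Fin m), ∑ x : Fin m → Bool,
      ((if t.testBit (idx x) then (1 : ℝ) else -1) * ∏ i ∈ S, (if x i then (1 : ℝ) else -1))
      = 2 * (((EO m t (fun i => decide (i ∈ S))).1 : ℝ) - (EO m t (fun i => decide (i ∈ S))).2)
        - (if S = ∅ then (2 : ℝ) ^ m else 0) := by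
    intro S
    have hspec := EO_spec m t (fun i => decide (i ∈ S))
    have hcast : (((EO m t (fun i => decide (i ∈ S))).1 : ℝ) - (EO m t (fun i => decide (i ∈ S))).2)
        = ∑ x : Fin m → Bool,
          (if t.testBit (idx x) then ∏ i ∈ S, (if x i then (1 : ℝ) else -1) else 0) := by
      have h1 := congrArg (fun z : ℤ => (z : ℝ)) hspec
      simp only [Int.cast_sub, Int.cast_natCast] at h1
      rw [h1, Int.cast_sum]
      apply Finset.sum_congr rfl
      intro x _
      split
      · rw [Int.cast_prod, ← Fintype.prod_ite_mem S (fun i => if x i = true then (1 : ℝ) else -1)]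
        apply Finset.prod_congr rfl
        intro i _
        by_cases hi : i ∈ S
        · simp only [hi, decide_true, if_true]
          split <;> simp
        · simp [hi]
      · simp
    have hchi := sum_chi (ι := Fin m) S
    simp only [chi, sg, Fintype.card_fin] at hchi
    rw [hcast, Finset.mul_sum, ← hchi, ← Finset.sum_sub_distrib]
    apply Finset.sum_congr rfl
    intro x _
    split <;> ring
  have hW0 : 0 < W := by
    rcases Nat.eq_zero_or_pos W with h0 | h0
    · subst h0; simp at hW
    · exact h0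
  apply amplify (fun x : Fin m → Bool => t.testBit (idx x)) d ((2 * W : ℝ) / 2 ^ m) ?_ ?_ ?_ ?_ C hC
  · have h := key ∅
    simp only [Finset.prod_empty, mul_one, Finset.notMem_empty, decide_false, if_true] at h
    rw [h]
    have hb : (2 : ℝ) * ((EO m t (fun _ => false)).1 : ℝ)
        = 2 * ((EO m t (fun _ => false)).2 : ℝ) + 2 ^ m := by exact_mod_cast hbal
    linarith
  · intro S hS
    rw [key]
    have hne : S ≠ ∅ := by
      rintro rfl; simp at hS
    have heq : (EO m t (fun i => decide (i ∈ S))).1 = (EO m t (fun i => decide (i ∈ S))).2 := by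
      apply chk_spec w d m 0 _ _ hE hO hchk (fun i => decide (i ∈ S))
      simp only [decide_eq_true_eq, zero_add]
      rw [Fintype.sum_ite_mem]
      simpa using hS
    rw [if_neg hne, heq]; simp
  · have h1 : ∀ i : Fin m, ∑ x : Fin m → Bool,
        ((if t.testBit (idx x) then (1 : ℝ) else -1) * (if x i then (1 : ℝ) else -1))
        = 2 * (((EO m t (fun j => decide (j = i))).1 : ℝ) - (EO m t (fun j => decide (j = i))).2) := by
      intro i
      have h := key {i}
      simp only [Finset.prod_singleton, Finset.mem_singleton, Finset.singleton_ne_empty,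
        if_false, sub_zero] at h
      exact h
    simp_rw [h1]
    rw [← Finset.sum_div, ← Finset.mul_sum, Finset.sum_sub_distrib]
    have hl : (∑ i : Fin m, ((EO m t (fun j => decide (j = i))).1 : ℝ))
        = (∑ i : Fin m, ((EO m t (fun j => decide (j = i))).2 : ℝ)) + W := by exact_mod_cast hlv
    rw [hl]; ring
  · have hpos : (0 : ℝ) < 2 * W / 2 ^ m := by positivity
    rw [Real.sqrt_lt' hpos, div_pow, lt_div_iff₀ (by positivity)]
    have h4 : ((2 : ℝ) ^ m) ^ 2 = (4 : ℝ) ^ m := by
      rw [← pow_mul, mul_comm, pow_mul]; norm_num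
    rw [h4]
    exact_mod_cast hW

end Crest.Agent.Helper2.Pack
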