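import Crest.Agent.Helper2.Eff1Values
import Crest.Agent.Helper28.ExpApprox

/-!
# `Real.smoothTransition` is `Eff1` (module SIGMA of the S0170 team build)
-/

set_option autoImplicit false

namespace Crest.Agent.Helper2

/-- The smooth step `Real.smoothTransition` is one-dimensionally effective: all its iterated
derivatives are computably approximable at rational points and computably bounded. -/
theorem eff1_smoothTransition : Crest.Agent.Helper13.Eff1 Real.smoothTransition :=
  eff1_smoothTransition_of_values Crest.Agent.Helper28.computable_stApprox
    Crest.Agent.Helper28.stApprox_spec

end Crest.Agent.Helper2
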