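import Mathlib
import Crest.Prelude.Def_TreeProducts
import Crest.Agent.Helper7.AUCGame
import Crest.Agent.Helper2.TreeProd
import Crest.Agent.Helper2.TreeLemma

/-!
# Path products in `L¹`: the `Lp` packaging for S0169

The classes `pp v` of the path products in the closed span `productSpan μ W`, their norms, the
norms of sums of sibling increments, and the conclusion of S0169 through the abstract tree lemma.
-/

set_option autoImplicit false
open MeasureTheory ProbabilityTheory
open Crest.AnalysisR Crest.AnalysisR.TreeProduct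

namespace Crest.Agent.Helper2.TP

set_option linter.unusedSectionVars false

variable {Ω : Type} [MeasurableSpace Ω] {μ : Measure Ω} {ν : Measure ℝ} {W : List ℕ → Ω → ℝ}

/-- The class of the path product at `v`, as an element of the product span. -/
noncomputable def pp (hint : ∀ v, Integrable (pathProduct W v) μ) (v : List ℕ) :
    productSpan μ W :=
  ⟨(hint v).toL1 (pathProduct W v),
    Submodule.le_topologicalClosure _ (Submodule.subset_span ⟨v, (hint v).coeFn_toL1⟩)⟩

lemma coe_pp_ae (hint : ∀ v, Integrable (pathProduct W v) μ) (v : List ℕ) :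
    (((pp hint v : productSpan μ W) : Lp ℝ 1 μ) : Ω → ℝ) =ᵐ[μ] pathProduct W v :=
  (hint v).coeFn_toL1

/-- The norm of an element of the product span is the integral of its absolute value. -/
lemma norm_eq_integral_abs (x : productSpan μ W) :
    ‖x‖ = ∫ ω, |((x : Lp ℝ 1 μ) : Ω → ℝ) ω| ∂μ := by
  have h : ‖x‖ = ‖(x : Lp ℝ 1 μ)‖ := rfl
  rw [h, L1.norm_eq_integral_norm]
  rfl

lemma norm_eq_of_ae (x : productSpan μ W) {g : Ω → ℝ}
    (h : ((x : Lp ℝ 1 μ) : Ω → ℝ) =ᵐ[μ] g) : ‖x‖ = ∫ ω, |g ω| ∂μ := by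
  rw [norm_eq_integral_abs]
  exact integral_congr_ae (h.mono fun ω hω => by simp only [hω])

/-- A sum of sibling increments is the class of `pathProduct W v * incSum W v A c`. -/
lemma coe_sum_ae (hint : ∀ v, Integrable (pathProduct W v) μ) (v : List ℕ) (A : Finset ℕ)
    (c : ℕ → ℝ) :
    (((∑ a ∈ A, c a • (pp hint (a :: v) - pp hint v) : productSpan μ W) : Lp ℝ 1 μ) : Ω → ℝ)
      =ᵐ[μ] fun ω => pathProduct W v ω * incSum W v A c ω := by
  have h1 : ((∑ a ∈ A, c a • (pp hint (a :: v) - pp hint v) : productSpan μ W) : Lp ℝ 1 μ)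
      = ∑ a ∈ A, c a • (((pp hint (a :: v) : productSpan μ W) : Lp ℝ 1 μ)
          - ((pp hint v : productSpan μ W) : Lp ℝ 1 μ)) := by
    push_cast
    rfl
  rw [h1]
  have h2 := Lp.coeFn_fun_finsetSum (μ := μ) A (fun a => c a •
    (((pp hint (a :: v) : productSpan μ W) : Lp ℝ 1 μ)
      - ((pp hint v : productSpan μ W) : Lp ℝ 1 μ)))
  have h3 : ∀ᵐ ω ∂μ, ∀ a ∈ A,
      ((c a • (((pp hint (a :: v) : productSpan μ W) : Lp ℝ 1 μ)
        - ((pp hint v : productSpan μ W) : Lp ℝ 1 μ)) : Lp ℝ 1 μ) : Ω → ℝ) ω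
        = c a * (pathProduct W (a :: v) ω - pathProduct W v ω) := by
    rw [Filter.eventually_all_finset]
    intro a _
    filter_upwards [Lp.coeFn_smul (c a) (((pp hint (a :: v) : productSpan μ W) : Lp ℝ 1 μ)
        - ((pp hint v : productSpan μ W) : Lp ℝ 1 μ)),
      Lp.coeFn_sub ((pp hint (a :: v) : productSpan μ W) : Lp ℝ 1 μ)
        ((pp hint v : productSpan μ W) : Lp ℝ 1 μ),
      coe_pp_ae hint (a :: v), coe_pp_ae hint v] with ω e1 e2 e3 e4
    rw [e1, Pi.smul_apply, e2, Pi.sub_apply, e3, e4, smul_eq_mul]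
  filter_upwards [h2, h3] with ω e2 e3
  rw [e2, Finset.sum_congr rfl e3]
  simp only [incSum, pathProduct, Finset.mul_sum]
  refine Finset.sum_congr rfl fun a _ => by ring

section realization

variable [IsProbabilityMeasure μ] [IsProbabilityMeasure ν]

lemma norm_pp (hW : IsRealization ν μ W) (hpos : ν (Set.Ioi 0) = 1) (hmean : ∫ x, x ∂ν = 1)
    (hm2 : Integrable (fun x : ℝ => x ^ 2) ν) (hint : ∀ v, Integrable (pathProduct W v) μ)
    (v : List ℕ) : ‖pp hint v‖ = 1 := by
  rw [norm_eq_of_ae _ (coe_pp_ae hint v)]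
  exact integral_abs_pathProduct hW hpos hmean hm2 v

/-- The norm of a sum of sibling increments. -/
lemma norm_sum_inc (hW : IsRealization ν μ W) (hpos : ν (Set.Ioi 0) = 1)
    (hmean : ∫ x, x ∂ν = 1) (hm2 : Integrable (fun x : ℝ => x ^ 2) ν)
    (hint : ∀ v, Integrable (pathProduct W v) μ) (v : List ℕ) (A : Finset ℕ) (c : ℕ → ℝ) :
    ‖∑ a ∈ A, c a • (pp hint (a :: v) - pp hint v)‖ = ∫ ω, |incSum W v A c ω| ∂μ := by
  rw [norm_eq_of_ae _ (coe_sum_ae hint v A c)]
  exact integral_abs_pathProduct_mul_incSum hW hpos hmean hm2 v A c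

/-- The norm of a single increment is `∫ |x - 1| dν`. -/
lemma norm_inc (hW : IsRealization ν μ W) (hpos : ν (Set.Ioi 0) = 1)
    (hmean : ∫ x, x ∂ν = 1) (hm2 : Integrable (fun x : ℝ => x ^ 2) ν)
    (hint : ∀ v, Integrable (pathProduct W v) μ) (v : List ℕ) (a : ℕ) :
    ‖pp hint (a :: v) - pp hint v‖ = rho ν := by
  have h := norm_sum_inc hW hpos hmean hm2 hint v {a} (fun _ => 1)
  simp only [Finset.sum_singleton, one_smul] at h
  rw [h]
  have h2 : ∀ ω, incSum W v {a} (fun _ => (1 : ℝ)) ω = W (a :: v) ω - 1 := fun ω => by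
    simp [incSum]
  simp only [h2]
  exact integral_comp_W hW (v := a :: v) (by simp) (g := fun x => |x - 1|)
    (measurable_id.sub measurable_const).abs

/-- **S0169, type-class form**: the product span is infinite-dimensional and has no equivalent
asymptotically uniformly convex norm. -/
theorem productSpan_not_auc (hpos : ν (Set.Ioi 0) = 1) (hnc : ∀ c : ℝ, ν ≠ Measure.dirac c)
    (hmean : ∫ x, x ∂ν = 1) (hm2 : Integrable (fun x : ℝ => x ^ 2) ν)
    (hW : IsRealization ν μ W) :
    (¬ FiniteDimensional ℝ (productSpan μ W)) ∧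
      ∀ N : productSpan μ W → ℝ, Crest.Agent.Helper7.AUC.IsEquivNorm N →
        ¬ Crest.Agent.Helper7.AUC.IsAUC N := by
  have hint : ∀ v, Integrable (pathProduct W v) μ :=
    fun v => (pathProduct_facts hW hpos hmean hm2 v).1
  refine Crest.Agent.Helper2.Tree.tree_not_isAUC (pp hint) 1 (rho ν) (rho_pos hnc hm2)
    (fun v => (norm_pp hW hpos hmean hm2 hint v).le)
    (fun v a => (norm_inc hW hpos hmean hm2 hint v a).ge)
    (fun v => ⟨Real.sqrt (s2 ν), fun A c => ?_⟩)
  rw [norm_sum_inc hW hpos hmean hm2 hint v A c]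
  exact integral_abs_incSum_le hW hmean hm2 v A c

end realization

end Crest.Agent.Helper2.TP
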